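import Vale.Agent.P092.SN.Defs
import Vale.Agent.P092.H644.PGr
import Vale.Agent.P092.H100.Gr3
import Vale.Agent.P092.H35.Spg

/-!
P092, Team N, products (helper305): the field `nis` of `LegN` for a lattice of any group `E` which
acts on the target space through a homomorphism onto a group containing `PSL_n(k)`.
-/

set_option linter.all false

open scoped LinearAlgebra.Projectivization
open MeasureTheory Topology Filter Set

namespace Vale.Agent.P092.H305.NP

open Vale.Agent.P092.SN (CG)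
open Vale.Agent.P092.RC (GG PG)
open Vale.Agent.P092.H100.Gr (Gr)
open Vale.Agent.P092.H35 (sp)
open Vale.Agent.P092.H514.NI (tr no_inv Covol toC)

variable {k : Type} [NontriviallyNormedField k] [ProperSpace k] {N : ℕ} {E : Type} [Group E]
  [TopologicalSpace E] [IsTopologicalGroup E]

theorem sp_smul (s : GG k N) {j : ℕ} (x : Gr k (Fin (N + 1)) j) : sp k (N + 1) s • x = s • x := rfl

/-- **No invariant state**, `Γ` acts on the subspaces through `θ : E →* PGL_n(k)`. -/
theorem nis_e (θ : E →* PG k (N + 1)) (hθ : Continuous θ)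
    (hs : ∀ s : GG k N, ∃ e : E, θ e = sp k (N + 1) s) (Γ : Subgroup E) (hΓ : Covol Γ)
    (q : Γ → GG k N) (hq : ∀ γ, sp k (N + 1) (q γ) = θ γ) {j : ℕ} (h1 : 1 ≤ j) (h2 : j ≤ N)
    (φ : CG k N j →ₗ[ℂ] ℂ) (hpos : ∀ f, 0 ≤ (φ (star f * f)).re) (hone : φ 1 = 1)
    (hinv : ∀ γ, ∀ f f' : CG k N j, (∀ x, f' (q γ • x) = f x) → φ f' = φ f) : False := by
  classical
  obtain ⟨ν, hν0, hνf, hν⟩ := hΓ
  obtain ⟨F, a, b, T, hF, hab, hT⟩ := H100.Gr.exists_data' (k := k) (ι := Fin (N + 1)) (d := j)
    (by omega) (by rw [Fintype.card_fin]; omega)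
  choose e he using hs
  have hact : ∀ (s : GG k N) (x : Gr k (Fin (N + 1)) j), θ (e s) • x = s • x := fun s x => by
    rw [he, sp_smul]
  let ψ : C(Gr k (Fin (N + 1)) j, ℝ) →ₗ[ℝ] ℝ :=
    { toFun := fun F => (φ (toC F)).re
      map_add' := fun F G => by
        have : toC (F + G) = toC F + toC G := by ext x; simp [toC]
        rw [this, map_add, Complex.add_re]
      map_smul' := fun c F => by
        have : toC (c • F) = (c : ℂ) • toC F := by ext x; simp [toC]
        rw [this, map_smul]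
        simp }
  have hF0 : ∀ x, 0 ≤ F x := fun x => hF x
  have hT1 : ∀ x, 1 ≤ ∑ g ∈ T.image e, ((T.card : ℝ) • F) (θ g • x) := by
    intro x
    refine (hT x).trans ?_
    calc ∑ g ∈ T, F (g • x) ≤ ∑ _g ∈ T, ∑ g' ∈ T.image e, F (θ g' • x) := by
          refine Finset.sum_le_sum fun g hg => ?_
          rw [← hact]
          exact Finset.single_le_sum (f := fun g' => F (θ g' • x)) (fun g' _ => hF0 _)
            (Finset.mem_image_of_mem e hg)
      _ = ∑ g ∈ T.image e, ((T.card : ℝ) • F) (θ g • x) := by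
          rw [Finset.sum_const, nsmul_eq_mul, Finset.mul_sum]
          rfl
  have hTc : (0 : ℝ) ≤ T.card := Nat.cast_nonneg _
  refine no_inv θ hθ Γ ν hν0 hνf hν ((T.card : ℝ) • F) (fun x => mul_nonneg hTc (hF0 x)) (e a) (e b)
    (fun x => ?_) (T.image e) hT1 ψ (fun G hG => ?_) ?_ fun γ hγ G => ?_
  · rw [hact, hact]
    have := mul_le_mul_of_nonneg_left (hab x) hTc
    change (T.card : ℝ) * F (a • x) + (T.card : ℝ) * F (b • x) ≤ (T.card : ℝ) * F x
    linarith
  · let H : C(Gr k (Fin (N + 1)) j, ℝ) := ⟨fun x => Real.sqrt (G x), G.continuous.sqrt⟩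
    have e1 : toC G = star (toC H) * toC H := by
      ext x
      simp only [toC, ContinuousMap.coe_mk, ContinuousMap.mul_apply, ContinuousMap.star_apply,
        Complex.star_def, Complex.conj_ofReal, ← Complex.ofReal_mul, H]
      exact congrArg _ (Real.mul_self_sqrt (hG x)).symm
    change 0 ≤ (φ (toC G)).re
    rw [e1]
    exact hpos _
  · have : toC (1 : C(Gr k (Fin (N + 1)) j, ℝ)) = 1 := by ext x; simp [toC]
    change (φ (toC 1)).re = 1
    rw [this, hone, Complex.one_re]
  · change (φ (toC (tr G (θ γ)))).re = (φ (toC G)).re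
    rw [hinv ⟨γ, hγ⟩ (toC (tr G (θ γ))) (toC G) fun x => ?_]
    change toC G (q ⟨γ, hγ⟩ • x) = toC (tr G (θ γ)) x
    rw [← sp_smul, hq]
    rfl

end Vale.Agent.P092.H305.NP
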