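import Vale.Agent.P092.H333.ErgT3
import Vale.Agent.P092.H333.ErgQ

/-!
P092 (helper305), project Q for all amplifications: from the ergodicity of the stripped
comultiplication for continuous operators to `ErgC` on the model `HH (PT α β γ)`.
-/

set_option linter.all false

open scoped InnerProductSpace Topology
open Filter ContinuousLinearMap
open Vale.Agent.P092.H160 Vale.Agent.P092.H103 Vale.Agent.P092.H962 Vale.Agent.P092.H333

namespace Vale.Agent.P092.H305.ErgTL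

section abs

variable {Γ H W W' : Type} [Group Γ] [Group H] [TopologicalSpace H]
  [NormedAddCommGroup W] [InnerProductSpace ℂ W] [CompleteSpace W]
  [NormedAddCommGroup W'] [InnerProductSpace ℂ W'] [CompleteSpace W']
  {κ : Γ → H} {a : Γ → (W →L[ℂ] W)} {a' : Γ → (W' →L[ℂ] W')}

/-- Strong continuity of `v ↦ a v * X * a v⁻¹` at `1`, in the topology of the place `κ`. -/
def CtJ (κ : Γ → H) (a : Γ → (W →L[ℂ] W)) (X : W →L[ℂ] W) : Prop :=
  ∀ ζ : W, ∀ ε : ℝ, 0 < ε → ∃ N ∈ 𝓝 (1 : H), ∀ v, κ v ∈ N → ‖(a v * X * a v⁻¹ - X) ζ‖ ≤ ε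

theorem CtJ.of_sum {X : W →L[ℂ] W} {X' : W' →L[ℂ] W'} (h : CtJ κ a X) {ι : Type} [Fintype ι]
    (C : ι → ℝ) (t : ι → W' → W) (hC : ∀ k, 0 ≤ C k)
    (hle : ∀ v ζ, ‖(a' v * X' * a' v⁻¹ - X') ζ‖ ≤
      ∑ k, C k * ‖(a v * X * a v⁻¹ - X) (t k ζ)‖) : CtJ κ a' X' := by
  intro ζ ε hε
  have hS : 0 ≤ ∑ k, C k := Finset.sum_nonneg fun k _ => hC k
  choose N hN h1 using fun k => h (t k ζ) (ε / (1 + ∑ k, C k)) (by positivity)
  refine ⟨⋂ k, N k, Filter.iInter_mem.mpr hN, fun v hv => (hle v ζ).trans ?_⟩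
  calc ∑ k, C k * ‖(a v * X * a v⁻¹ - X) (t k ζ)‖
      ≤ ∑ k, C k * (ε / (1 + ∑ k, C k)) := Finset.sum_le_sum fun k _ =>
        mul_le_mul_of_nonneg_left (h1 k v (Set.mem_iInter.1 hv k)) (hC k)
    _ = (∑ k, C k) * (ε / (1 + ∑ k, C k)) := by rw [Finset.sum_mul]
    _ ≤ (1 + ∑ k, C k) * (ε / (1 + ∑ k, C k)) := by gcongr; linarith
    _ = ε := by field_simp

theorem CtJ.of_one {X : W →L[ℂ] W} {X' : W' →L[ℂ] W'} (h : CtJ κ a X) (t : W' → W)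
    (hle : ∀ v ζ, ‖(a' v * X' * a' v⁻¹ - X') ζ‖ ≤ ‖(a v * X * a v⁻¹ - X) (t ζ)‖) :
    CtJ κ a' X' :=
  h.of_sum (ι := Unit) (fun _ => 1) (fun _ => t) (fun _ => zero_le_one) fun v ζ => by
    simpa using hle v ζ

/-- Sums `∑ m X n` with `m`, `n` commuting with `a`. -/
theorem CtJ.sum {X : W →L[ℂ] W} (h : CtJ κ a X) {ι : Type} [Fintype ι]
    (m n : ι → (W →L[ℂ] W)) (hm : ∀ k v, a v * m k = m k * a v) (hn : ∀ k v, a v * n k = n k * a v) :
    CtJ κ a (∑ k, m k * X * n k) := by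
  refine h.of_sum (fun k => ‖m k‖) (fun k ζ => n k ζ) (fun k => norm_nonneg _) fun v ζ => ?_
  have e1 : a v * (∑ k, m k * X * n k) * a v⁻¹ - ∑ k, m k * X * n k =
      ∑ k, m k * (a v * X * a v⁻¹ - X) * n k := by
    rw [Finset.mul_sum, Finset.sum_mul, ← Finset.sum_sub_distrib]
    refine Finset.sum_congr rfl fun k _ => ?_
    calc a v * (m k * X * n k) * a v⁻¹ - m k * X * n k
        = (a v * m k) * X * (n k * a v⁻¹) - m k * X * n k := by simp only [mul_assoc]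
      _ = (m k * a v) * X * (a v⁻¹ * n k) - m k * X * n k := by rw [hm, ← hn]
      _ = _ := by simp only [mul_sub, sub_mul, mul_assoc]
  rw [e1, sum_apply]
  refine (norm_sum_le _ _).trans (Finset.sum_le_sum fun k _ => ?_)
  exact (m k).le_opNorm _

/-- Compression by an isometry intertwining `a'` and `a`. -/
theorem CtJ.strip {X : W →L[ℂ] W} (h : CtJ κ a X) {F : W' →L[ℂ] W}
    (hF : adjoint F ∘L F = 1) (h1 : ∀ v, a v ∘L F = F ∘L a' v)
    (h2 : ∀ v, adjoint F ∘L a v = a' v ∘L adjoint F) :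
    CtJ κ a' (adjoint F ∘L X ∘L F) := by
  have hn : ∀ u : W', ‖F u‖ = ‖u‖ := by
    intro u
    have h3 : adjoint F (F u) = u := congrArg (fun L : W' →L[ℂ] W' => L u) hF
    have h4 : ⟪F u, F u⟫_ℂ = ⟪u, u⟫_ℂ := by rw [← adjoint_inner_right, h3]
    rw [inner_self_eq_norm_sq_to_K, inner_self_eq_norm_sq_to_K] at h4
    have h5 : ‖F u‖ ^ 2 = ‖u‖ ^ 2 := by exact_mod_cast h4
    exact (pow_left_inj₀ (norm_nonneg _) (norm_nonneg _) two_ne_zero).mp h5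
  have hF1 : ‖F‖ ≤ 1 := ContinuousLinearMap.opNorm_le_bound _ zero_le_one fun u => by
    rw [hn, one_mul]
  refine h.of_one (fun ζ => F ζ) fun v ζ => ?_
  have e1 : (a' v * (adjoint F ∘L X ∘L F) * a' v⁻¹ - adjoint F ∘L X ∘L F) ζ =
      adjoint F ((a v * X * a v⁻¹ - X) (F ζ)) := by
    have e2 : F (a' v⁻¹ ζ) = a v⁻¹ (F ζ) :=
      (congrArg (fun L : W' →L[ℂ] W => L ζ) (h1 v⁻¹)).symm
    have e3 : ∀ w, adjoint F (a v w) = a' v (adjoint F w) := fun w =>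
      congrArg (fun L : W →L[ℂ] W' => L w) (h2 v)
    change a' v (adjoint F (X (F (a' v⁻¹ ζ)))) - adjoint F (X (F ζ)) =
      adjoint F (a v (X (a v⁻¹ (F ζ))) - X (F ζ))
    rw [map_sub, e3, e2]
  rw [e1]
  calc _ ≤ ‖adjoint F‖ * ‖(a v * X * a v⁻¹ - X) (F ζ)‖ := (adjoint F).le_opNorm _
    _ ≤ 1 * ‖(a v * X * a v⁻¹ - X) (F ζ)‖ := by
        gcongr
        rw [LinearIsometryEquiv.norm_map]
        exact hF1
    _ = _ := one_mul _

/-- Extension of an operator of the range of `P`. -/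
theorem CtJ.up {P : W →L[ℂ] W} (hP : P * P = P) {V : Γ → (HH P →L[ℂ] HH P)}
    {x : HH P →L[ℂ] HH P} (h : CtJ κ V x) (hy : ∀ g (w : HH P), (V g w : W) = a g w)
    (ha : ∀ g, P * a g = a g * P) : CtJ κ a (up hP x) := by
  refine h.of_one (fun ζ => pr hP ζ) fun v ζ => ?_
  have e1 : ∀ g w, pr hP (a g w) = V g (pr hP w) := by
    intro g w
    apply Subtype.ext
    rw [hy]
    exact congrArg (fun T : W →L[ℂ] W => T w) (ha g)
  have e2 : (a v * H333.up hP x * a v⁻¹ - H333.up hP x) ζ =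
      (((V v * x * V v⁻¹ - x) (pr hP ζ) : HH P) : W) := by
    change a v (x (pr hP (a v⁻¹ ζ)) : W) - (x (pr hP ζ) : W) =
      ((V v (x (V v⁻¹ (pr hP ζ))) - x (pr hP ζ) : HH P) : W)
    rw [e1, ← hy]
    rfl
  rw [e2]
  exact le_of_eq rfl

end abs

section final

variable {I J K Λ Γ H : Type} [Group Λ] [Group Γ] [Group H] [TopologicalSpace H]
  [Fintype I] [Fintype J] [Fintype K]
  {α : Γ → (Ell2 (I × Λ) →L[ℂ] Ell2 (I × Λ))}
  {β : Γ → (Ell2 (J × Λ) →L[ℂ] Ell2 (J × Λ))} {γ : Γ → (Ell2 (K × Λ) →L[ℂ] Ell2 (K × Λ))}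
  {κ : Γ → H}

/-- The ergodicity of the stripped comultiplication, continuous operators. -/
def ErgUC (α : Γ → (Ell2 (I × Λ) →L[ℂ] Ell2 (I × Λ))) (κ : Γ → H) : Prop :=
  ∀ X : Ell2 (I × ((Unit × Λ) × (Unit × Λ))) →L[ℂ] Ell2 (I × ((Unit × Λ) × (Unit × Λ))),
    VT Unit Unit (α 1) * X = X → X * VT Unit Unit (α 1) = X →
    (∀ s t : Λ, X * tens 1 (tens (tens 1 (rho s)) (tens 1 (rho t))) =
      tens 1 (tens (tens 1 (rho s)) (tens 1 (rho t))) * X) →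
    (∀ ζ, ∀ ε : ℝ, 0 < ε → ∃ N ∈ 𝓝 (1 : H), ∀ v, κ v ∈ N →
      ‖(VT Unit Unit (α v) * X * VT Unit Unit (α v⁻¹) - X) ζ‖ ≤ ε) →
    ∃ c : ℂ, X = c • VT Unit Unit (α 1)

theorem erg_lift_c (j0 : J) (k0 : K) (hU : ErgUC α κ)
    {X : Ell2 (I × ((J × Λ) × (K × Λ))) →L[ℂ] Ell2 (I × ((J × Λ) × (K × Λ)))}
    (h1 : ∀ y ∈ MR J Λ, X * tens 1 (tens y 1) = tens 1 (tens y 1) * X)
    (h2 : ∀ z ∈ MR K Λ, X * tens 1 (tens 1 z) = tens 1 (tens 1 z) * X)
    (hP : VT J K (α 1) * X = X) (hP' : X * VT J K (α 1) = X)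
    (hX : CtJ κ (fun g => VT J K (α g)) X) :
    ∃ c : ℂ, X = c • VT J K (α 1) := by
  have hc : ∀ p : J × K, X * (Fe I Λ p.1 p.2 ∘L adjoint (Fe I Λ j0 k0)) =
      (Fe I Λ p.1 p.2 ∘L adjoint (Fe I Λ j0 k0)) * X := by
    intro p
    rw [Fe_Fe, ← mul_assoc, h1 _ (tens_mem_MR _), mul_assoc, h2 _ (tens_mem_MR _), mul_assoc]
  have hall := strip_all (F := fun p : J × K => Fe I Λ p.1 p.2) (b0 := (j0, k0)) (X := X)
    (Fe_iso j0 k0) hc
  have hcm : ∀ {a : Ell2 (I × ((J × Λ) × (K × Λ))) →L[ℂ] Ell2 (I × ((J × Λ) × (K × Λ)))}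
      {a' : Ell2 (I × ((Unit × Λ) × (Unit × Λ))) →L[ℂ] Ell2 (I × ((Unit × Λ) × (Unit × Λ)))},
      a ∘L Fe I Λ j0 k0 = Fe I Λ j0 k0 ∘L a' →
      adjoint (Fe I Λ j0 k0) ∘L a = a' ∘L adjoint (Fe I Λ j0 k0) → X * a = a * X →
      (adjoint (Fe I Λ j0 k0) ∘L X ∘L Fe I Λ j0 k0) * a' =
        a' * (adjoint (Fe I Λ j0 k0) ∘L X ∘L Fe I Λ j0 k0) := fun e1 e2 h =>
    strip_comm (F := fun p : J × K => Fe I Λ p.1 p.2) (b0 := (j0, k0)) e1 e2 h
  have hl : VT Unit Unit (α 1) * (adjoint (Fe I Λ j0 k0) ∘L X ∘L Fe I Λ j0 k0) =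
      adjoint (Fe I Λ j0 k0) ∘L X ∘L Fe I Λ j0 k0 :=
    strip_left (F := fun p : J × K => Fe I Λ p.1 p.2) (b0 := (j0, k0)) (Fe_VT _ _ _) hP
  have hr := hcm (VT_Fe (α 1) j0 k0) (Fe_VT (α 1) j0 k0) (hP'.trans hP.symm)
  rw [hl] at hr
  obtain ⟨c, hc'⟩ := hU (adjoint (Fe I Λ j0 k0) ∘L X ∘L Fe I Λ j0 k0) hl hr (fun s t =>
      hcm (RR_Fe j0 k0 (rho s) (rho t)) (Fe_RR j0 k0 (rho s) (rho t)) (by
        rw [RR_eq, ← mul_assoc, h1 _ (rho_mem_MR s), mul_assoc, h2 _ (rho_mem_MR t), mul_assoc]))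
    (hX.strip (a' := fun g => VT Unit Unit (α g)) (Fe_iso j0 k0) (fun v => VT_Fe (α v) j0 k0)
      (fun v => Fe_VT (α v) j0 k0))
  refine ⟨c, ext_Fe (F := ℂ) fun j k => ?_⟩
  have h3 := hall (j, k)
  change X ∘L Fe I Λ j k = Fe I Λ j k ∘L (adjoint (Fe I Λ j0 k0) ∘L X ∘L Fe I Λ j0 k0) at h3
  rw [h3, hc', comp_smul, smul_comp, VT_Fe]

/-- The lift is a finite sum. -/
theorem lift_sum {X X' : Ell2 (I × ((J × Λ) × (K × Λ))) →L[ℂ] Ell2 (I × ((J × Λ) × (K × Λ)))}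
    {κ₁ κ₂ : Type} [Fintype κ₁] [Fintype κ₂] {v : κ₁ → (Ell2 (J × Λ) →L[ℂ] Ell2 (J × Λ))}
    {w : κ₂ → (Ell2 (K × Λ) →L[ℂ] Ell2 (K × Λ))}
    (hv : ∀ k, v k ∈ MR J Λ) (hvs : ∑ k, v k * JT (β 1) * adjoint (v k) = 1)
    (hw : ∀ k, w k ∈ MR K Λ) (hws : ∑ k, w k * JT (γ 1) * adjoint (w k) = 1)
    (h1 : ∀ y ∈ MR J Λ, X' * tens 1 (tens y 1) = tens 1 (tens y 1) * X')
    (h2 : ∀ z ∈ MR K Λ, X' * tens 1 (tens 1 z) = tens 1 (tens 1 z) * X')
    (h3 : R1T I K (β 1) * (R2T I J (γ 1) * X') = X) :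
    X' = ∑ p : κ₁ × κ₂, (tens 1 (tens (v p.1) 1) * tens 1 (tens 1 (w p.2))) * X *
      (tens 1 (tens 1 (adjoint (w p.2))) * tens 1 (tens (adjoint (v p.1)) 1)) := by
  have L1 := leg1 (A := I) (B := J × Λ) (C := K × Λ)
  have L2 := leg2 (A := I) (B := J × Λ) (C := K × Λ)
  have e1 : ∑ k, amp1 I (J × Λ) (K × Λ) (v k) * R1T I K (β 1) *
      amp1 I (J × Λ) (K × Λ) (adjoint (v k)) = 1 := by
    rw [← L1.one, ← hvs, map_sum]
    exact Finset.sum_congr rfl fun k _ => by rw [L1.mul, L1.mul]; rfl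
  have e2 : ∑ k, amp2 I (J × Λ) (K × Λ) (w k) * R2T I J (γ 1) *
      amp2 I (J × Λ) (K × Λ) (adjoint (w k)) = 1 := by
    rw [← L2.one, ← hws, map_sum]
    exact Finset.sum_congr rfl fun k _ => by rw [L2.mul, L2.mul]; rfl
  have c1 : ∀ l, amp2 I (J × Λ) (K × Λ) (w l) * R1T I K (β 1) =
      R1T I K (β 1) * amp2 I (J × Λ) (K × Λ) (w l) := fun l => (amp12 (JT (β 1)) (w l)).symm
  calc X' = (∑ k, amp1 I (J × Λ) (K × Λ) (v k) * R1T I K (β 1) *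
        amp1 I (J × Λ) (K × Λ) (adjoint (v k))) * X' := by rw [e1, one_mul]
    _ = ∑ k, amp1 I (J × Λ) (K × Λ) (v k) * R1T I K (β 1) * ((∑ l, amp2 I (J × Λ) (K × Λ) (w l) *
        R2T I J (γ 1) * amp2 I (J × Λ) (K × Λ) (adjoint (w l))) * X') *
        amp1 I (J × Λ) (K × Λ) (adjoint (v k)) := by
        rw [e2, one_mul, Finset.sum_mul]
        refine Finset.sum_congr rfl fun k _ => ?_
        have := h1 _ (MR_adj (hv k))
        change X' * amp1 I (J × Λ) (K × Λ) (adjoint (v k)) =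
          amp1 I (J × Λ) (K × Λ) (adjoint (v k)) * X' at this
        rw [mul_assoc _ _ X', ← this, ← mul_assoc]
    _ = ∑ k, ∑ l, (amp1 I (J × Λ) (K × Λ) (v k) * amp2 I (J × Λ) (K × Λ) (w l)) * X *
        (amp2 I (J × Λ) (K × Λ) (adjoint (w l)) * amp1 I (J × Λ) (K × Λ) (adjoint (v k))) := by
        refine Finset.sum_congr rfl fun k _ => ?_
        rw [Finset.sum_mul, Finset.mul_sum, Finset.sum_mul]
        refine Finset.sum_congr rfl fun l _ => ?_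
        have e3 := h2 _ (MR_adj (hw l))
        change X' * amp2 I (J × Λ) (K × Λ) (adjoint (w l)) =
          amp2 I (J × Λ) (K × Λ) (adjoint (w l)) * X' at e3
        calc amp1 I (J × Λ) (K × Λ) (v k) * R1T I K (β 1) * (amp2 I (J × Λ) (K × Λ) (w l) *
              R2T I J (γ 1) * amp2 I (J × Λ) (K × Λ) (adjoint (w l)) * X') *
              amp1 I (J × Λ) (K × Λ) (adjoint (v k))
            = amp1 I (J × Λ) (K × Λ) (v k) * ((R1T I K (β 1) * amp2 I (J × Λ) (K × Λ) (w l)) *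
              R2T I J (γ 1) * (amp2 I (J × Λ) (K × Λ) (adjoint (w l)) * X')) *
              amp1 I (J × Λ) (K × Λ) (adjoint (v k)) := by simp only [mul_assoc]
          _ = amp1 I (J × Λ) (K × Λ) (v k) * ((amp2 I (J × Λ) (K × Λ) (w l) * R1T I K (β 1)) *
              R2T I J (γ 1) * (X' * amp2 I (J × Λ) (K × Λ) (adjoint (w l)))) *
              amp1 I (J × Λ) (K × Λ) (adjoint (v k)) := by rw [c1 l, e3]
          _ = (amp1 I (J × Λ) (K × Λ) (v k) * amp2 I (J × Λ) (K × Λ) (w l)) * (R1T I K (β 1) *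
              (R2T I J (γ 1) * X')) * (amp2 I (J × Λ) (K × Λ) (adjoint (w l)) *
              amp1 I (J × Λ) (K × Λ) (adjoint (v k))) := by simp only [mul_assoc]
          _ = _ := by rw [h3]
    _ = _ := by rw [← Finset.univ_product_univ, Finset.sum_product]; rfl

theorem erg_t_c (hΛ : ∀ s : Λ, s ≠ 1 → Set.Infinite {y : Λ | ∃ h, y = h * s * h⁻¹})
    (hα : AF α) (hβ : AF β) (hγ : AF γ) (hU : ErgUC α κ)
    {X : Ell2 (I × ((J × Λ) × (K × Λ))) →L[ℂ] Ell2 (I × ((J × Λ) × (K × Λ)))}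
    (hV : VT J K (α 1) * X = X) (hV' : X * VT J K (α 1) = X)
    (h1 : R1T I K (β 1) * X = X) (h1' : X * R1T I K (β 1) = X)
    (h2 : R2T I J (γ 1) * X = X) (h2' : X * R2T I J (γ 1) = X)
    (hX1 : ∀ g, X * R1T I K (β g) = R1T I K (β g) * X)
    (hX2 : ∀ g, X * R2T I J (γ g) = R2T I J (γ g) * X)
    (hXV : CtJ κ (fun g => VT J K (α g)) X) :
    ∃ c : ℂ, X = c • (VT J K (α 1) * R1T I K (β 1) * R2T I J (γ 1)) := by
  obtain ⟨X', hX'1, hX'2, hX'3, hX'4, hX'5, hX'6⟩ := exists_lift hβ hγ (fsum_of_icc hΛ hβ)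
    (fsum_of_icc hΛ hγ) h1 h1' h2 h2' hX1 hX2
  have hc1 : ∀ g, ∀ y ∈ MR J Λ, tens 1 (tens y 1) * VT J K (α g) =
      VT J K (α g) * tens 1 (tens y 1) := by
    intro g y hy
    have := comm_VR1 (I := I) (K := K) (hα.comm g) (eqv_of_MR hy)
    rw [R1T, JT_JT] at this
    exact this.symm
  have hc2 : ∀ g, ∀ z ∈ MR K Λ, tens 1 (tens 1 z) * VT J K (α g) =
      VT J K (α g) * tens 1 (tens 1 z) := by
    intro g y hy
    have := comm_VR2 (I := I) (J := J) (hα.comm g) (eqv_of_MR hy)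
    rw [R2T, JT_JT] at this
    exact this.symm
  obtain ⟨j0⟩ := AF.nonempty hβ
  obtain ⟨k0⟩ := AF.nonempty hγ
  have hXc : CtJ κ (fun g => VT J K (α g)) X' := by
    obtain ⟨κ₁, _, v, hv, hvs⟩ := fsum_of_icc hΛ hβ
    obtain ⟨κ₂, _, w, hw, hws⟩ := fsum_of_icc hΛ hγ
    rw [lift_sum hv hvs hw hws hX'1 hX'2 hX'3]
    refine hXV.sum _ _ (fun p g => ?_) fun p g => ?_
    · change VT J K (α g) * (tens 1 (tens (v p.1) 1) * tens 1 (tens 1 (w p.2))) =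
        (tens 1 (tens (v p.1) 1) * tens 1 (tens 1 (w p.2))) * VT J K (α g)
      rw [← mul_assoc, ← hc1 g _ (hv p.1), mul_assoc, ← hc2 g _ (hw p.2), mul_assoc]
    · change VT J K (α g) * (tens 1 (tens 1 (adjoint (w p.2))) *
        tens 1 (tens (adjoint (v p.1)) 1)) = (tens 1 (tens 1 (adjoint (w p.2))) *
        tens 1 (tens (adjoint (v p.1)) 1)) * VT J K (α g)
      rw [← mul_assoc, ← hc2 g _ (MR_adj (hw p.2)), mul_assoc, ← hc1 g _ (MR_adj (hv p.1)),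
        mul_assoc]
  obtain ⟨c, hX'c⟩ := erg_lift_c j0 k0 hU hX'1 hX'2 (hX'5 _ hV (hc1 1) (hc2 1))
    (hX'6 _ hV' (hc1 1) (hc2 1)) hXc
  refine ⟨c, ?_⟩
  rw [← hX'3, hX'c]
  have e1 : R2T I J (γ 1) * VT J K (α 1) = VT J K (α 1) * R2T I J (γ 1) :=
    (comm_VR2 (hα.comm 1) (hγ.comm 1)).symm
  have e2 : R1T I K (β 1) * VT J K (α 1) = VT J K (α 1) * R1T I K (β 1) :=
    (comm_VR1 (hα.comm 1) (hβ.comm 1)).symm
  rw [mul_smul_comm, mul_smul_comm, e1, ← mul_assoc, e2]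

/-- **Ergodicity on `HH P`, continuous operators.** -/
theorem erg_HH_c (hΛ : ∀ s : Λ, s ≠ 1 → Set.Infinite {y : Λ | ∃ h, y = h * s * h⁻¹})
    (hα : AF α) (hβ : AF β) (hγ : AF γ) (hU : ErgUC α κ)
    {P : Ell2 (I × ((J × Λ) × (K × Λ))) →L[ℂ] Ell2 (I × ((J × Λ) × (K × Λ)))}
    (hPd : P = VT J K (α 1) * R1T I K (β 1) * R2T I J (γ 1))
    {V R₁ R₂ : Γ → (HH P →L[ℂ] HH P)}
    (hV : ∀ g (w : HH P), (V g w : Ell2 (I × ((J × Λ) × (K × Λ)))) = VT J K (α g) w)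
    (h₁ : ∀ g (w : HH P), (R₁ g w : Ell2 (I × ((J × Λ) × (K × Λ)))) = R1T I K (β g) w)
    (h₂ : ∀ g (w : HH P), (R₂ g w : Ell2 (I × ((J × Λ) × (K × Λ)))) = R2T I J (γ g) w)
    {x : HH P →L[ℂ] HH P} (hxV : CtJ κ V x) (hx1 : ∀ g, x * R₁ g = R₁ g * x)
    (hx2 : ∀ g, x * R₂ g = R₂ g * x) : ∃ c : ℂ, x = c • (1 : HH P →L[ℂ] HH P) := by
  have c12 : ∀ g h, VT J K (α g) * R1T I K (β h) = R1T I K (β h) * VT J K (α g) := fun g h =>
    comm_VR1 (hα.comm g) (hβ.comm h)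
  have c13 : ∀ g h, VT J K (α g) * R2T I J (γ h) = R2T I J (γ h) * VT J K (α g) := fun g h =>
    comm_VR2 (hα.comm g) (hγ.comm h)
  have c23 : ∀ g h, R1T I K (β g) * R2T I J (γ h) = R2T I J (γ h) * R1T I K (β g) := fun g h =>
    comm_R1R2 (β g) (γ h)
  have m1 : ∀ g, VT J K (α 1) * VT J K (α g) = VT J K (α g) := fun g => by
    rw [← VT_mul, hα.p_mul]
  have m1' : ∀ g, VT J K (α g) * VT J K (α 1) = VT J K (α g) := fun g => by
    rw [← VT_mul, hα.mul_p]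
  have m2 : ∀ g, R1T I K (β 1) * R1T I K (β g) = R1T I K (β g) := fun g => by
    rw [← R1T_mul, hβ.p_mul]
  have m2' : ∀ g, R1T I K (β g) * R1T I K (β 1) = R1T I K (β g) := fun g => by
    rw [← R1T_mul, hβ.mul_p]
  have m3 : ∀ g, R2T I J (γ 1) * R2T I J (γ g) = R2T I J (γ g) := fun g => by
    rw [← R2T_mul, hγ.p_mul]
  have m3' : ∀ g, R2T I J (γ g) * R2T I J (γ 1) = R2T I J (γ g) := fun g => by
    rw [← R2T_mul, hγ.mul_p]
  -- commutations of `P`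
  have PV : ∀ g, P * VT J K (α g) = VT J K (α g) * P := by
    intro g
    calc P * VT J K (α g)
        = VT J K (α 1) * (R1T I K (β 1) * (R2T I J (γ 1) * VT J K (α g))) := by
          rw [hPd]; simp only [mul_assoc]
      _ = VT J K (α 1) * ((R1T I K (β 1) * VT J K (α g)) * R2T I J (γ 1)) := by
          rw [← c13, mul_assoc]
      _ = (VT J K (α 1) * VT J K (α g)) * (R1T I K (β 1) * R2T I J (γ 1)) := by
          rw [← c12]; simp only [mul_assoc]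
      _ = (VT J K (α g) * VT J K (α 1)) * (R1T I K (β 1) * R2T I J (γ 1)) := by rw [m1, m1']
      _ = _ := by rw [hPd]; simp only [mul_assoc]
  have PR1 : ∀ g, P * R1T I K (β g) = R1T I K (β g) * P := by
    intro g
    calc P * R1T I K (β g)
        = VT J K (α 1) * (R1T I K (β 1) * (R2T I J (γ 1) * R1T I K (β g))) := by
          rw [hPd]; simp only [mul_assoc]
      _ = VT J K (α 1) * ((R1T I K (β 1) * R1T I K (β g)) * R2T I J (γ 1)) := by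
          rw [← c23, mul_assoc]
      _ = (VT J K (α 1) * (R1T I K (β g) * R1T I K (β 1))) * R2T I J (γ 1) := by
          rw [m2, m2', mul_assoc]
      _ = (VT J K (α 1) * R1T I K (β g)) * (R1T I K (β 1) * R2T I J (γ 1)) := by
          simp only [mul_assoc]
      _ = _ := by rw [c12, hPd]; simp only [mul_assoc]
  have PR2 : ∀ g, P * R2T I J (γ g) = R2T I J (γ g) * P := by
    intro g
    calc P * R2T I J (γ g)
        = VT J K (α 1) * (R1T I K (β 1) * (R2T I J (γ 1) * R2T I J (γ g))) := by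
          rw [hPd]; simp only [mul_assoc]
      _ = VT J K (α 1) * ((R1T I K (β 1) * R2T I J (γ g)) * R2T I J (γ 1)) := by
          rw [m3, mul_assoc, m3']
      _ = (VT J K (α 1) * R2T I J (γ g)) * (R1T I K (β 1) * R2T I J (γ 1)) := by
          rw [c23]; simp only [mul_assoc]
      _ = _ := by rw [c13, hPd]; simp only [mul_assoc]
  have LV : VT J K (α 1) * P = P := by
    rw [hPd, ← mul_assoc, ← mul_assoc, m1]
  have L1 : R1T I K (β 1) * P = P := by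
    rw [hPd, ← mul_assoc, ← mul_assoc, ← c12, mul_assoc (VT J K (α 1)), m2]
  have L2 : R2T I J (γ 1) * P = P := by
    rw [← PR2, hPd, mul_assoc, m3]
  have hP : P * P = P := by
    nth_rewrite 1 [hPd]
    rw [mul_assoc, L2, mul_assoc, L1, LV]
  obtain ⟨c, hc⟩ := erg_t_c hΛ hα hβ hγ hU (X := up hP x) (left_up hP x LV)
    (up_right hP x ((PV 1).trans LV)) (left_up hP x L1) (up_right hP x ((PR1 1).trans L1))
    (left_up hP x L2) (up_right hP x ((PR2 1).trans L2))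
    (fun g => up_comm hP (h₁ g) (PR1 g) (hx1 g)) (fun g => up_comm hP (h₂ g) (PR2 g) (hx2 g))
    (hxV.up hP hV PV)
  rw [← hPd] at hc
  exact ⟨c, of_up hP hc⟩

/-- **From the stripped statement to the model.** -/
theorem ergC_of_ergUC (hΛ : ∀ s : Λ, s ≠ 1 → Set.Infinite {y : Λ | ∃ h, y = h * s * h⁻¹})
    (hα : AF α) (hβ : AF β) (hγ : AF γ) {κ : Γ →* H} (hU : ErgUC α κ) :
    Amp.ErgC κ (V3 hα hβ hγ) (A3R hα hβ hγ) (B3R hα hβ hγ) := by
  intro x hA hB hx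
  exact erg_HH_c hΛ hα hβ hγ hU rfl (V3_val hα hβ hγ) (A3R_val hα hβ hγ) (B3R_val hα hβ hγ) hx hA hB

end final

end Vale.Agent.P092.H305.ErgTL
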