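import Mathlib.Analysis.InnerProductSpace.Adjoint
import Mathlib.Tactic

/-!
P092 (helper305), products: the boundary calculi of two commuting wall sequences commute.
`A`, `A'` are commuting multiplication operators, `R t`, `R' s` commuting unitaries; `A` almost
commutes with `R' s` on `R t ξ`, uniformly in `s`, and `A'` almost commutes with `R t` on `R' s ξ`,
uniformly in `t` (the sizes of `R' s` in the coordinate of `A` are tight, and vice versa).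
-/

set_option linter.all false

open scoped InnerProductSpace
open Filter Topology ContinuousLinearMap

namespace Vale.Agent.P092.H305.Two

variable {K T S : Type*} [NormedAddCommGroup K] [InnerProductSpace ℂ K] [CompleteSpace K]
  {l : Filter T} {l' : Filter S} {R : T → (K →L[ℂ] K)} {R' : S → (K →L[ℂ] K)}
  {A A' β β' : K →L[ℂ] K}

/-- `B` almost commutes with `U s` on `Q t ξ`, uniformly in `s`. -/
def Sl (l : Filter T) (Q : T → (K →L[ℂ] K)) (U : S → (K →L[ℂ] K)) (B : K →L[ℂ] K) : Prop :=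
  ∀ ξ : K, ∀ ε : ℝ, 0 < ε → ∀ᶠ t in l, ∀ s, ‖B (U s (Q t ξ)) - U s (B (Q t ξ))‖ ≤ ε

/-- the mixed coefficient -/
theorem coef (h1 : ∀ t, adjoint (R t) * R t = 1) (h2 : ∀ t, R t * adjoint (R t) = 1)
    (h1' : ∀ s, adjoint (R' s) * R' s = 1) (h2' : ∀ s, R' s * adjoint (R' s) = 1)
    (hc : ∀ t s, R t * R' s = R' s * R t)
    (hA : Sl l R R' (adjoint A)) (hA' : Sl l' R' R A') (ξ η : K) {ε : ℝ} (hε : 0 < ε) :
    ∀ᶠ t in l, ∀ᶠ s in l', ‖⟪adjoint (R' s) (A' (R' s ξ)), adjoint (R t) (adjoint A (R t η))⟫_ℂ -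
      ⟪A (A' (R t (R' s ξ))), R t (R' s η)⟫_ℂ‖ ≤ ε := by
  obtain ⟨M, hM⟩ : ∃ M : ℝ, M = 1 + ‖A‖ * ‖η‖ + ‖A'‖ * ‖ξ‖ := ⟨_, rfl⟩
  have hM0 : 0 < M := by rw [hM]; positivity
  filter_upwards [hA η (ε / M) (by positivity)] with t ht
  filter_upwards [hA' ξ (ε / M) (by positivity)] with s hs
  have ht' := ht s
  have hs' := hs t
  have ap : ∀ {a b : K →L[ℂ] K}, a = b → ∀ v, a v = b v := fun h v => by rw [h]
  have n1 : ∀ v, ‖R t v‖ = ‖v‖ := by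
    intro v
    have h3 : ⟪R t v, R t v⟫_ℂ = ⟪v, v⟫_ℂ := by
      rw [← adjoint_inner_right]
      congr 1
      exact ap (h1 t) v
    rw [inner_self_eq_norm_sq_to_K, inner_self_eq_norm_sq_to_K] at h3
    have h5 : ‖R t v‖ ^ 2 = ‖v‖ ^ 2 := by exact_mod_cast h3
    exact (pow_left_inj₀ (norm_nonneg _) (norm_nonneg _) two_ne_zero).mp h5
  have n2 : ∀ v, ‖R' s v‖ = ‖v‖ := by
    intro v
    have h3 : ⟪R' s v, R' s v⟫_ℂ = ⟪v, v⟫_ℂ := by
      rw [← adjoint_inner_right]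
      congr 1
      exact ap (h1' s) v
    rw [inner_self_eq_norm_sq_to_K, inner_self_eq_norm_sq_to_K] at h3
    have h5 : ‖R' s v‖ ^ 2 = ‖v‖ ^ 2 := by exact_mod_cast h3
    exact (pow_left_inj₀ (norm_nonneg _) (norm_nonneg _) two_ne_zero).mp h5
  have c1 : ∀ v, R t (R' s v) = R' s (R t v) := ap (hc t s)
  -- `R t` commutes with the inverse of `R' s`
  have c2 : ∀ v, R t (adjoint (R' s) v) = adjoint (R' s) (R t v) := by
    intro v
    have h3 : adjoint (R' s) (R' s (R t (adjoint (R' s) v))) = R t (adjoint (R' s) v) :=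
      ap (h1' s) _
    rw [← h3, ← c1]
    congr 2
    exact ap (h2' s) v
  have e1 : ⟪adjoint (R' s) (A' (R' s ξ)), adjoint (R t) (adjoint A (R t η))⟫_ℂ =
      ⟪R t (A' (R' s ξ)), R' s (adjoint A (R t η))⟫_ℂ := by
    rw [adjoint_inner_right, c2, adjoint_inner_left]
  have e2 : ⟪A (A' (R t (R' s ξ))), R t (R' s η)⟫_ℂ =
      ⟪A' (R t (R' s ξ)), adjoint A (R' s (R t η))⟫_ℂ := by
    rw [adjoint_inner_right, c1 η]
  rw [e1, e2]
  obtain ⟨d1, hd1⟩ : ∃ d, d = A' (R t (R' s ξ)) - R t (A' (R' s ξ)) := ⟨_, rfl⟩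
  obtain ⟨d2, hd2⟩ : ∃ d, d = adjoint A (R' s (R t η)) - R' s (adjoint A (R t η)) := ⟨_, rfl⟩
  have f1 : A' (R t (R' s ξ)) = R t (A' (R' s ξ)) + d1 := by rw [hd1]; abel
  have f2 : adjoint A (R' s (R t η)) = R' s (adjoint A (R t η)) + d2 := by rw [hd2]; abel
  have e3 : ⟪R t (A' (R' s ξ)), R' s (adjoint A (R t η))⟫_ℂ -
      ⟪A' (R t (R' s ξ)), adjoint A (R' s (R t η))⟫_ℂ =
      - (⟪R t (A' (R' s ξ)), d2⟫_ℂ + ⟪d1, adjoint A (R' s (R t η))⟫_ℂ) := by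
    rw [f1]
    nth_rewrite 1 [show R' s (adjoint A (R t η)) = adjoint A (R' s (R t η)) - d2 by rw [f2]; abel]
    rw [inner_sub_right, inner_add_left]
    ring
  rw [e3, norm_neg]
  have b1 : ‖d1‖ ≤ ε / M := by rw [hd1]; exact hs'
  have b2 : ‖d2‖ ≤ ε / M := by rw [hd2]; exact ht'
  have b3 : ‖R t (A' (R' s ξ))‖ ≤ ‖A'‖ * ‖ξ‖ := by
    rw [n1]
    refine (A'.le_opNorm _).trans ?_
    rw [n2]
  have b4 : ‖adjoint A (R' s (R t η))‖ ≤ ‖A‖ * ‖η‖ := by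
    refine ((adjoint A).le_opNorm _).trans ?_
    rw [n2, n1, LinearIsometryEquiv.norm_map]
  calc ‖⟪R t (A' (R' s ξ)), d2⟫_ℂ + ⟪d1, adjoint A (R' s (R t η))⟫_ℂ‖
      ≤ ‖R t (A' (R' s ξ))‖ * ‖d2‖ + ‖d1‖ * ‖adjoint A (R' s (R t η))‖ :=
        (norm_add_le _ _).trans (add_le_add (norm_inner_le_norm _ _) (norm_inner_le_norm _ _))
    _ ≤ (‖A'‖ * ‖ξ‖) * (ε / M) + (ε / M) * (‖A‖ * ‖η‖) := by gcongr
    _ = (‖A'‖ * ‖ξ‖ + ‖A‖ * ‖η‖) * (ε / M) := by ring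
    _ ≤ M * (ε / M) := by gcongr; rw [hM]; linarith
    _ = ε := by field_simp

/-- **The two limits commute.** -/
theorem comm_two [l.NeBot] [l'.NeBot] (h1 : ∀ t, adjoint (R t) * R t = 1)
    (h2 : ∀ t, R t * adjoint (R t) = 1) (h1' : ∀ s, adjoint (R' s) * R' s = 1)
    (h2' : ∀ s, R' s * adjoint (R' s) = 1) (hc : ∀ t s, R t * R' s = R' s * R t)
    (hAA : A * A' = A' * A) (sA : Sl l R R' A) (sA1 : Sl l R R' (adjoint A)) (sA' : Sl l' R' R A')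
    (sA1' : Sl l' R' R (adjoint A'))
    (lA : ∀ ξ, Tendsto (fun t => adjoint (R t) (A (R t ξ))) l (𝓝 (β ξ)))
    (lA1 : ∀ ξ, Tendsto (fun t => adjoint (R t) (adjoint A (R t ξ))) l (𝓝 (adjoint β ξ)))
    (lA' : ∀ ξ, Tendsto (fun s => adjoint (R' s) (A' (R' s ξ))) l' (𝓝 (β' ξ)))
    (lA1' : ∀ ξ, Tendsto (fun s => adjoint (R' s) (adjoint A' (R' s ξ))) l' (𝓝 (adjoint β' ξ))) :
    β * β' = β' * β := by
  ext1 ξ
  refine ext_inner_right ℂ fun η => ?_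
  have g1 : ⟪β (β' ξ), η⟫_ℂ = ⟪β' ξ, adjoint β η⟫_ℂ := (adjoint_inner_right β _ _).symm
  have g2 : ⟪β' (β ξ), η⟫_ℂ = ⟪β ξ, adjoint β' η⟫_ℂ := (adjoint_inner_right β' _ _).symm
  change ⟪β (β' ξ), η⟫_ℂ = ⟪β' (β ξ), η⟫_ℂ
  rw [g1, g2]
  have key : ∀ ε : ℝ, 0 < ε → ‖⟪β' ξ, adjoint β η⟫_ℂ - ⟪β ξ, adjoint β' η⟫_ℂ‖ ≤ ε + ε := by
    intro ε hε
    have k1 := coef h1 h2 h1' h2' hc sA1 sA' ξ η hε
    have k2 := coef (A := adjoint A) (A' := adjoint A') h1 h2 h1' h2' hc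
      (by rw [adjoint_adjoint]; exact sA) sA1' η ξ hε
    have k3 : ∀ᶠ t in l, ∀ᶠ s in l',
        ‖⟪adjoint (R' s) (A' (R' s ξ)), adjoint (R t) (adjoint A (R t η))⟫_ℂ -
          ⟪adjoint (R t) (A (R t ξ)), adjoint (R' s) (adjoint A' (R' s η))⟫_ℂ‖ ≤ ε + ε := by
      filter_upwards [k1, k2] with t ht ht2
      filter_upwards [ht, ht2] with s hs hs2
      rw [adjoint_adjoint] at hs2
      have e1 : ⟪A (A' (R t (R' s ξ))), R t (R' s η)⟫_ℂ =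
          ⟪R t (R' s ξ), adjoint A (adjoint A' (R t (R' s η)))⟫_ℂ := by
        have h3 : A (A' (R t (R' s ξ))) = A' (A (R t (R' s ξ))) := by
          change (A * A') _ = (A' * A) _
          rw [hAA]
        rw [h3, adjoint_inner_right, adjoint_inner_right]
      have e2 : ‖⟪adjoint (R t) (A (R t ξ)), adjoint (R' s) (adjoint A' (R' s η))⟫_ℂ -
          ⟪R t (R' s ξ), adjoint A (adjoint A' (R t (R' s η)))⟫_ℂ‖ ≤ ε := by
        rw [← inner_conj_symm, ← inner_conj_symm (R t (R' s ξ)), ← map_sub, RCLike.norm_conj]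
        exact hs2
      calc _ = ‖(⟪adjoint (R' s) (A' (R' s ξ)), adjoint (R t) (adjoint A (R t η))⟫_ℂ -
            ⟪A (A' (R t (R' s ξ))), R t (R' s η)⟫_ℂ) -
            (⟪adjoint (R t) (A (R t ξ)), adjoint (R' s) (adjoint A' (R' s η))⟫_ℂ -
            ⟪R t (R' s ξ), adjoint A (adjoint A' (R t (R' s η)))⟫_ℂ)‖ := by
            rw [e1]
            congr 1
            ring
        _ ≤ _ := (norm_sub_le _ _).trans (add_le_add hs e2)
    have k4 : ∀ᶠ t in l, ‖⟪β' ξ, adjoint (R t) (adjoint A (R t η))⟫_ℂ -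
        ⟪adjoint (R t) (A (R t ξ)), adjoint β' η⟫_ℂ‖ ≤ ε + ε := by
      filter_upwards [k3] with t ht
      have h3 : Tendsto (fun s => ‖⟪adjoint (R' s) (A' (R' s ξ)),
          adjoint (R t) (adjoint A (R t η))⟫_ℂ -
          ⟪adjoint (R t) (A (R t ξ)), adjoint (R' s) (adjoint A' (R' s η))⟫_ℂ‖) l'
          (𝓝 ‖⟪β' ξ, adjoint (R t) (adjoint A (R t η))⟫_ℂ -
            ⟪adjoint (R t) (A (R t ξ)), adjoint β' η⟫_ℂ‖) :=
        (((lA' ξ).inner tendsto_const_nhds).sub (tendsto_const_nhds.inner (lA1' η))).norm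
      exact le_of_tendsto h3 ht
    have h3 : Tendsto (fun t => ‖⟪β' ξ, adjoint (R t) (adjoint A (R t η))⟫_ℂ -
        ⟪adjoint (R t) (A (R t ξ)), adjoint β' η⟫_ℂ‖) l
        (𝓝 ‖⟪β' ξ, adjoint β η⟫_ℂ - ⟪β ξ, adjoint β' η⟫_ℂ‖) :=
      ((tendsto_const_nhds.inner (lA1 η)).sub ((lA ξ).inner tendsto_const_nhds)).norm
    exact le_of_tendsto h3 k4
  by_contra hne
  have hpos : 0 < ‖⟪β' ξ, adjoint β η⟫_ℂ - ⟪β ξ, adjoint β' η⟫_ℂ‖ :=
    norm_pos_iff.mpr (sub_ne_zero.mpr hne)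
  have := key _ (by positivity : 0 < ‖⟪β' ξ, adjoint β η⟫_ℂ - ⟪β ξ, adjoint β' η⟫_ℂ‖ / 4)
  linarith

end Vale.Agent.P092.H305.Two
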